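import Mathlib

/-!
# P139 / H307 : Gronwall with integrable forcing, continuous induction
-/

open Set MeasureTheory Complex

namespace Vale.Agent.P139.H307

/-- Continuous induction: a continuous function that stays `< c` at `x` whenever it is `≤ c`
on `[a,x]`, stays `< c` on `[a,b]`. -/
theorem cont_induction {g : ℝ → ℝ} {a b c : ℝ} (hg : ContinuousOn g (Icc a b))
    (h : ∀ x ∈ Icc a b, (∀ t ∈ Ico a x, g t < c) → g x < c) :
    ∀ x ∈ Icc a b, g x < c := by
  by_contra hcon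
  push Not at hcon
  obtain ⟨x0, hx0, hgx0⟩ := hcon
  -- the set of bad points
  set S : Set ℝ := {x ∈ Icc a b | c ≤ g x} with hS
  have hSclosed : IsClosed S := by
    have : S = Icc a b ∩ g ⁻¹' (Ici c) := by
      ext x; simp [hS]
    rw [this]
    exact hg.preimage_isClosed_of_isClosed isClosed_Icc isClosed_Ici
  have hSne : S.Nonempty := ⟨x0, hx0, hgx0⟩
  have hSbdd : BddBelow S := ⟨a, fun x hx => hx.1.1⟩
  have hmem : sInf S ∈ S := hSclosed.csInf_mem hSne hSbdd
  have hlt := h (sInf S) hmem.1 (fun t ht => by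
    by_contra hge
    push Not at hge
    have htS : t ∈ S := ⟨⟨ht.1, ht.2.le.trans hmem.1.2⟩, hge⟩
    exact absurd (csInf_le hSbdd htS) (not_le.mpr ht.2))
  exact absurd hmem.2 (not_le.mpr hlt)

/-- Gronwall for a second order linear system with integrable forcing. -/
theorem gron2 {E P N A : ℝ → ℂ} {B : ℂ} {R b K G : ℝ} (hK : 1 ≤ K)
    (hE : ∀ r ∈ Icc R b, HasDerivWithinAt E (P r) (Icc R b) r)
    (hP : ∀ r ∈ Icc R b, HasDerivWithinAt P (A r * P r + B * E r + N r) (Icc R b) r)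
    (hA : ∀ r ∈ Icc R b, ‖A r‖ ≤ K) (hB : ‖B‖ ≤ K)
    (hN : ContinuousOn N (Icc R b))
    (hG : ∫ r in R..b, ‖N r‖ ≤ G) :
    ∀ r ∈ Icc R b, ‖E r‖ ≤ (max ‖E R‖ ‖P R‖ + 2 * G) * Real.exp (2 * K * (r - R)) ∧
      ‖P r‖ ≤ (max ‖E R‖ ‖P R‖ + 2 * G) * Real.exp (2 * K * (r - R)) := by
  intro r0 hr0
  have hRb : R ≤ b := hr0.1.trans hr0.2
  have hNi : IntervalIntegrable N volume R b := hN.intervalIntegrable_of_Icc hRb
  have hNi' : ∀ r ∈ Icc R b, IntervalIntegrable N volume R r := fun r hr =>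
    hNi.mono_set (by rw [uIcc_of_le hr.1, uIcc_of_le hRb]; exact Icc_subset_Icc_right hr.2)
  set J : ℝ → ℂ := fun r => ∫ s in R..r, N s with hJ
  have hJG : ∀ r ∈ Icc R b, ‖J r‖ ≤ G := by
    intro r hr
    calc ‖J r‖ ≤ ∫ s in R..r, ‖N s‖ := intervalIntegral.norm_integral_le_integral_norm hr.1
      _ ≤ ∫ s in R..b, ‖N s‖ := by
          apply intervalIntegral.integral_mono_interval le_rfl hr.1 hr.2
          · exact Filter.Eventually.of_forall (fun _ => norm_nonneg _)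
          · exact hNi.norm
      _ ≤ G := hG
  have hG0 : 0 ≤ G := (norm_nonneg _).trans (hJG R ⟨le_rfl, hRb⟩)
  have hJd : ∀ r ∈ Ico R b, HasDerivWithinAt J (N r) (Ici r) r := by
    intro r hr
    have hmem : Icc R b ∈ nhdsWithin r (Ici r) := by
      rcases eq_or_lt_of_le hr.1 with h | h
      · rw [← h]; exact Icc_mem_nhdsGE (lt_of_le_of_lt hr.1 hr.2)
      · exact mem_nhdsWithin_of_mem_nhds (Icc_mem_nhds h hr.2)
    have hcw : ContinuousWithinAt N (Ici r) r :=
      (hN r ⟨hr.1, hr.2.le⟩).mono_of_mem_nhdsWithin hmem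
    have hcw' : ContinuousWithinAt N (Ioi r) r := hcw.mono Ioi_subset_Ici_self
    have hmem' : Icc R b ∈ nhdsWithin r (Ioi r) := nhdsWithin_mono r Ioi_subset_Ici_self hmem
    apply intervalIntegral.integral_hasDerivWithinAt_right (hNi' r ⟨hr.1, hr.2.le⟩)
      (s := Ici r) (t := Ioi r)
    · exact ⟨Icc R b, hmem', hN.aestronglyMeasurable measurableSet_Icc⟩
    · exact hcw'
  set Y : ℝ → ℂ := fun r => P r - J r with hY
  set f : ℝ → ℂ × ℂ := fun r => (E r, Y r) with hf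
  set f' : ℝ → ℂ × ℂ := fun r => (P r, A r * P r + B * E r) with hf'
  have hEc : ContinuousOn E (Icc R b) := fun r hr => (hE r hr).continuousWithinAt
  have hPc : ContinuousOn P (Icc R b) := fun r hr => (hP r hr).continuousWithinAt
  have hJc : ContinuousOn J (Icc R b) := by
    have := intervalIntegral.continuousOn_primitive_interval (μ := volume) (f := N) (a := R) (b := b)
      (by rw [uIcc_of_le hRb]; exact hN.integrableOn_Icc)
    rwa [uIcc_of_le hRb] at this
  have hfc : ContinuousOn f (Icc R b) := hEc.prodMk (hPc.sub hJc)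
  have hfd : ∀ r ∈ Ico R b, HasDerivWithinAt f (f' r) (Ici r) r := by
    intro r hr
    have hmem : Icc R b ∈ nhdsWithin r (Ici r) := by
      rcases eq_or_lt_of_le hr.1 with h | h
      · rw [← h]; exact Icc_mem_nhdsGE (lt_of_le_of_lt hr.1 hr.2)
      · exact mem_nhdsWithin_of_mem_nhds (Icc_mem_nhds h hr.2)
    have h1 := (hE r ⟨hr.1, hr.2.le⟩).mono_of_mem_nhdsWithin hmem
    have h2 := (hP r ⟨hr.1, hr.2.le⟩).mono_of_mem_nhdsWithin hmem
    have h3 := h2.sub (hJd r hr)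
    have h4 : HasDerivWithinAt Y (A r * P r + B * E r) (Ici r) r :=
      h3.congr_deriv (by ring)
    exact h1.prodMk h4
  have hf0 : ‖f R‖ ≤ max ‖E R‖ ‖P R‖ := by
    simp only [hf, hY, hJ, Prod.norm_def]
    simp
  have hfn : ∀ r ∈ Icc R b, ‖E r‖ ≤ ‖f r‖ ∧ ‖P r‖ ≤ ‖f r‖ + G := by
    intro r hr
    have hEn : ‖E r‖ ≤ ‖f r‖ := by simp only [hf, Prod.norm_def]; exact le_max_left _ _
    have hYn : ‖Y r‖ ≤ ‖f r‖ := by simp only [hf, Prod.norm_def]; exact le_max_right _ _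
    have hPn : P r = Y r + J r := by simp [hY]
    refine ⟨hEn, ?_⟩
    rw [hPn]
    exact (norm_add_le _ _).trans (add_le_add hYn (hJG r hr))
  have hbound : ∀ r ∈ Ico R b, ‖f' r‖ ≤ (2 * K) * ‖f r‖ + K * G := by
    intro r hr
    have hr' : r ∈ Icc R b := ⟨hr.1, hr.2.le⟩
    obtain ⟨hEn, hPn⟩ := hfn r hr'
    have h0 : 0 ≤ ‖f r‖ := norm_nonneg _
    have hfe : ‖f' r‖ = max ‖P r‖ ‖A r * P r + B * E r‖ := rfl
    rw [hfe]
    apply max_le
    · nlinarith [mul_nonneg (sub_nonneg.mpr hK) h0, mul_nonneg (sub_nonneg.mpr hK) hG0]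
    · calc ‖A r * P r + B * E r‖ ≤ ‖A r‖ * ‖P r‖ + ‖B‖ * ‖E r‖ := by
            refine (norm_add_le _ _).trans ?_
            rw [norm_mul, norm_mul]
        _ ≤ K * (‖f r‖ + G) + K * ‖f r‖ := by
            gcongr
            exact hA r hr'
        _ = (2 * K) * ‖f r‖ + K * G := by ring
  have hfin := norm_le_gronwallBound_of_norm_deriv_right_le hfc hfd hf0 hbound r0 hr0
  have hK0 : (0 : ℝ) < 2 * K := by linarith
  rw [gronwallBound_of_K_ne_0 hK0.ne'] at hfin
  have hexp : 1 ≤ Real.exp (2 * K * (r0 - R)) := by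
    apply Real.one_le_exp
    have := hr0.1
    nlinarith
  have hx : K * G / (2 * K) = G / 2 := by field_simp
  simp only [hx] at hfin
  have hm : 0 ≤ max ‖E R‖ ‖P R‖ := le_max_of_le_left (norm_nonneg _)
  obtain ⟨h1, h2⟩ := hfn r0 hr0
  constructor
  · refine h1.trans (hfin.trans ?_)
    nlinarith
  · refine h2.trans ?_
    nlinarith

end Vale.Agent.P139.H307
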