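import Vale.Agent.P139.H307.Gron

/-!
# P139 / H307 : second phase with a real potential `0 ≤ V ≤ |Q|^n` : layer estimate
-/

open Set MeasureTheory Complex

namespace Vale.Agent.P139.H307

/-- coefficient of `Q'` in the profile equation solved for `Q''` -/
noncomputable def cA (D r : ℝ) : ℂ := -((D / r : ℝ) : ℂ) - I * ((r / 2 : ℝ) : ℂ)

/-- coefficient of `Q` -/
noncomputable def cB (w a : ℝ) : ℂ := -((w : ℂ) + I * (a : ℂ))

/-- The first order system `Q' = P`, `P' = cA P + cB Q + V Q` on `[R,b]`. -/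
structure SysV (D w a : ℝ) (V : ℝ → ℝ) (Q P : ℝ → ℂ) (R b : ℝ) : Prop where
  hQ : ∀ r ∈ Icc R b, HasDerivWithinAt Q (P r) (Icc R b) r
  hP : ∀ r ∈ Icc R b,
    HasDerivWithinAt P (cA D r * P r + cB w a * Q r + (V r : ℂ) * Q r) (Icc R b) r

theorem SysV.mono {D w a : ℝ} {V : ℝ → ℝ} {Q P : ℝ → ℂ} {R b R' b' : ℝ}
    (h : SysV D w a V Q P R b) (h1 : R ≤ R') (h2 : b' ≤ b) : SysV D w a V Q P R' b' :=
  ⟨fun r hr => (h.hQ r ⟨h1.trans hr.1, hr.2.trans h2⟩).mono (Icc_subset_Icc h1 h2),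
   fun r hr => (h.hP r ⟨h1.trans hr.1, hr.2.trans h2⟩).mono (Icc_subset_Icc h1 h2)⟩

theorem SysV.contQ {D w a : ℝ} {V : ℝ → ℝ} {Q P : ℝ → ℂ} {R b : ℝ}
    (h : SysV D w a V Q P R b) : ContinuousOn Q (Icc R b) :=
  fun r hr => (h.hQ r hr).continuousWithinAt

theorem SysV.contP {D w a : ℝ} {V : ℝ → ℝ} {Q P : ℝ → ℂ} {R b : ℝ}
    (h : SysV D w a V Q P R b) : ContinuousOn P (Icc R b) :=
  fun r hr => (h.hP r hr).continuousWithinAt

/-- nonpositive derivative implies `f t ≤ f a`. -/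
theorem le_of_deriv_nonpos {f f' : ℝ → ℝ} {a b : ℝ}
    (hf : ∀ t ∈ Icc a b, HasDerivWithinAt f (f' t) (Icc a b) t)
    (hle : ∀ t ∈ Icc a b, f' t ≤ 0) : ∀ t ∈ Icc a b, f t ≤ f a := by
  intro t ht
  have hanti : AntitoneOn f (Icc a b) := by
    apply antitoneOn_of_deriv_nonpos (convex_Icc a b)
      (fun s hs => (hf s hs).continuousWithinAt)
    · intro s hs
      rw [interior_Icc] at hs
      exact ((hf s (Ioo_subset_Icc_self hs)).hasDerivAt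
        (Icc_mem_nhds hs.1 hs.2)).differentiableAt.differentiableWithinAt
    · intro s hs
      rw [interior_Icc] at hs
      rw [((hf s (Ioo_subset_Icc_self hs)).hasDerivAt (Icc_mem_nhds hs.1 hs.2)).deriv]
      exact hle s (Ioo_subset_Icc_self hs)
  exact hanti ⟨le_rfl, ht.1.trans ht.2⟩ ht ht.1

theorem norm_cA_le {D r Rlo b : ℝ} (hD : 0 ≤ D) (hR : 0 < Rlo) (h1 : Rlo ≤ r) (h2 : r ≤ b) :
    ‖cA D r‖ ≤ D / Rlo + b / 2 := by
  have hr : 0 < r := lt_of_lt_of_le hR h1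
  unfold cA
  refine (norm_sub_le _ _).trans ?_
  rw [norm_neg, norm_mul, Complex.norm_I, one_mul, Complex.norm_real, Complex.norm_real,
    Real.norm_eq_abs, Real.norm_eq_abs, abs_of_nonneg (div_nonneg hD hr.le),
    abs_of_nonneg (by positivity)]
  have : D / r ≤ D / Rlo := div_le_div_of_nonneg_left hD hR h1
  linarith

theorem norm_cB_le {w a : ℝ} (hw : 0 ≤ w) (hw1 : w ≤ 1) (ha : 0 ≤ a) (ha1 : a ≤ 1) :
    ‖cB w a‖ ≤ 2 := by
  unfold cB
  rw [norm_neg]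
  refine (norm_add_le _ _).trans ?_
  rw [norm_mul, Complex.norm_I, one_mul, Complex.norm_real, Complex.norm_real,
    Real.norm_eq_abs, Real.norm_eq_abs, abs_of_nonneg hw, abs_of_nonneg ha]
  linarith

/-- auxiliary: real inner product with a complex multiple of itself. -/
theorem inner_mul_self (c z : ℂ) : inner ℝ z (c * z) = c.re * ‖z‖ ^ 2 := by
  rw [Complex.inner, Complex.sq_norm, Complex.normSq_apply]
  simp only [mul_re, conj_re, conj_im, mul_im]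
  ring

theorem Icc_mem_Ici {R b x : ℝ} (hx : x ∈ Ico R b) : Icc R b ∈ nhdsWithin x (Ici x) := by
  rcases eq_or_lt_of_le hx.1 with h | h
  · rw [← h]; exact Icc_mem_nhdsGE (lt_of_le_of_lt hx.1 hx.2)
  · exact mem_nhdsWithin_of_mem_nhds (Icc_mem_nhds h hx.2)

/-- The layer estimate under the a priori hypothesis `|Q|^n ≤ 3w/4`. -/
theorem layer_aux {D w a : ℝ} {n : ℕ} {V : ℝ → ℝ} {Q P : ℝ → ℂ} {R b K wlo pm : ℝ}
    (hn : 1 ≤ n) (hV0 : ∀ t ∈ Icc R b, 0 ≤ V t) (hV1 : ∀ t ∈ Icc R b, V t ≤ ‖Q t‖ ^ n)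
    (hS : SysV D w a V Q P R b)
    (hK : 2 ≤ K) (hA : ∀ r ∈ Icc R b, ‖cA D r‖ ≤ K) (hB : ‖cB w a‖ ≤ 2)
    (hwlo : 0 < wlo) (hw : wlo ≤ w) (hw1 : w ≤ 1)
    (hpm : 0 < pm) (hpm1 : 2 * pm ^ 2 + 2 * K * pm ≤ wlo / 8)
    (hδ : 12 * (b - R) ≤ pm) (hδK : K * (b - R) ≤ 1) (hpm2 : pm ≤ 1)
    (hq0 : 7 / 8 ≤ ‖Q R‖) (hq1 : 6 * ‖P R‖ ≤ pm)
    (hin : inner ℝ (Q R) (P R) ≤ 0)
    (hap : ∀ t ∈ Icc R b, ‖Q t‖ ^ n ≤ 3 / 4 * w) :
    ∀ t ∈ Icc R b, 2 * inner ℝ (Q t) (P t) ≤ -(wlo / 8) * (t - R) ∧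
      ‖Q t‖ ^ 2 ≤ ‖Q R‖ ^ 2 - wlo / 16 * (t - R) ^ 2 ∧ ‖P t‖ ≤ pm := by
  have hQ1 : ∀ t ∈ Icc R b, ‖Q t‖ ≤ 1 := by
    intro t ht
    by_contra hcon
    push Not at hcon
    have h1 : 1 < ‖Q t‖ ^ n := one_lt_pow₀ hcon (by omega)
    have := hap t ht
    linarith
  -- bound of P
  have hPb : ∀ t ∈ Icc R b, ‖P t‖ ≤ pm := by
    intro t ht
    have hg := norm_le_gronwallBound_of_norm_deriv_right_le (f := P)
      (f' := fun r => cA D r * P r + cB w a * Q r + (V r : ℂ) * Q r)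
      (δ := ‖P R‖) (K := K) (ε := 3)
      (a := R) (b := b) hS.contP ?_ le_rfl ?_ t ht
    · rw [gronwallBound_of_K_ne_0 (by linarith)] at hg
      have hx0 : 0 ≤ t - R := by linarith [ht.1]
      have hx : K * (t - R) ≤ 1 := by
        refine le_trans ?_ hδK
        have := ht.2
        gcongr
      have hKx : 0 ≤ K * (t - R) := by positivity
      have hexp : Real.exp (K * (t - R)) ≤ 1 + 2 * (K * (t - R)) := by
        have habs : |K * (t - R)| ≤ 1 := by rw [abs_of_nonneg hKx]; exact hx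
        have h3 := Real.abs_exp_sub_one_le habs
        rw [abs_of_nonneg hKx] at h3
        have := le_abs_self (Real.exp (K * (t - R)) - 1)
        linarith
      have h3K : 3 / K * (Real.exp (K * (t - R)) - 1) ≤ 6 * (t - R) := by
        have hK0 : 0 < K := by linarith
        rw [div_mul_eq_mul_div, div_le_iff₀ hK0]
        nlinarith
      have hP0 : 0 ≤ ‖P R‖ := norm_nonneg _
      have h4 : ‖P R‖ * Real.exp (K * (t - R)) ≤ 3 * ‖P R‖ := by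
        have : Real.exp (K * (t - R)) ≤ 3 := by linarith
        nlinarith
      have : t ≤ b := ht.2
      linarith
    · intro x hx
      exact (hS.hP x ⟨hx.1, hx.2.le⟩).mono_of_mem_nhdsWithin (Icc_mem_Ici hx)
    · intro x hx
      have hx' : x ∈ Icc R b := ⟨hx.1, hx.2.le⟩
      have h1 : ‖(V x : ℂ) * Q x‖ ≤ 1 := by
        rw [norm_mul, Complex.norm_real, Real.norm_eq_abs, abs_of_nonneg (hV0 x hx')]
        have h2 := hap x hx'
        have h3 := hQ1 x hx'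
        have h4 : 0 ≤ ‖Q x‖ := norm_nonneg _
        have h5 := hV0 x hx'
        have h6 := hV1 x hx'
        nlinarith
      have h2 : ‖cB w a * Q x‖ ≤ 2 := by
        rw [norm_mul]
        have h3 := hQ1 x hx'
        have h4 : 0 ≤ ‖Q x‖ := norm_nonneg _
        have h5 : 0 ≤ ‖cB w a‖ := norm_nonneg _
        nlinarith
      have h3 : ‖cA D x * P x‖ ≤ K * ‖P x‖ := by
        rw [norm_mul]
        gcongr
        exact hA x hx'
      calc ‖cA D x * P x + cB w a * Q x + (V x : ℂ) * Q x‖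
          ≤ ‖cA D x * P x‖ + ‖cB w a * Q x‖ + ‖(V x : ℂ) * Q x‖ := norm_add₃_le
        _ ≤ K * ‖P x‖ + 3 := by linarith
  -- lower bound of Q
  have hQlow : ∀ t ∈ Icc R b, 3 / 4 ≤ ‖Q t‖ := by
    intro t ht
    have h1 : ‖Q t - Q R‖ ≤ pm * (t - R) :=
      norm_image_sub_le_of_norm_deriv_le_segment' hS.hQ (fun x hx => hPb x ⟨hx.1, hx.2.le⟩) t ht
    have h2 : pm * (t - R) ≤ 1 / 12 := by
      have : t - R ≤ b - R := by linarith [ht.2]
      have h0 : 0 ≤ t - R := by linarith [ht.1]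
      nlinarith
    have h3 : ‖Q R‖ ≤ ‖Q t‖ + ‖Q t - Q R‖ := by
      have := norm_sub_norm_le (Q R) (Q t)
      rw [norm_sub_rev] at this
      linarith
    linarith
  -- second derivative
  set φ' : ℝ → ℝ := fun t => 2 * inner ℝ (Q t) (P t) with hφ'
  set φ'' : ℝ → ℝ := fun t => 2 * (inner ℝ (Q t) (cA D t * P t + cB w a * Q t + (V t : ℂ) * Q t)
      + inner ℝ (P t) (P t)) with hφ''
  have hd1 : ∀ t ∈ Icc R b, HasDerivWithinAt (fun t => ‖Q t‖ ^ 2) (φ' t) (Icc R b) t :=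
    fun t ht => (hS.hQ t ht).norm_sq
  have hd2 : ∀ t ∈ Icc R b, HasDerivWithinAt φ' (φ'' t) (Icc R b) t :=
    fun t ht => ((hS.hQ t ht).inner ℝ (hS.hP t ht)).const_mul 2
  have hφ2 : ∀ t ∈ Icc R b, φ'' t ≤ -(wlo / 8) := by
    intro t ht
    have e1 : inner ℝ (Q t) (cA D t * P t + cB w a * Q t + (V t : ℂ) * Q t)
        = inner ℝ (Q t) (cA D t * P t) + -w * ‖Q t‖ ^ 2 + V t * ‖Q t‖ ^ 2 := by
      rw [inner_add_right, inner_add_right, inner_mul_self, inner_mul_self,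
        Complex.ofReal_re]
      congr 2
      simp [cB]
    have e2 : inner ℝ (P t) (P t) = ‖P t‖ ^ 2 := real_inner_self_eq_norm_sq _
    have e3 : inner ℝ (Q t) (cA D t * P t) ≤ K * ‖P t‖ := by
      refine (real_inner_le_norm _ _).trans ?_
      rw [norm_mul]
      have h1 := hQ1 t ht
      have h2 := hA t ht
      have h3 : 0 ≤ ‖P t‖ := norm_nonneg _
      have h4 : 0 ≤ ‖cA D t‖ := norm_nonneg _
      have h5 : 0 ≤ ‖Q t‖ := norm_nonneg _
      calc ‖Q t‖ * (‖cA D t‖ * ‖P t‖) ≤ 1 * (K * ‖P t‖) := by gcongr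
        _ = K * ‖P t‖ := one_mul _
    have h1 := (hV1 t ht).trans (hap t ht)
    have h2 := hQlow t ht
    have h3 := hPb t ht
    have h4 : 0 ≤ ‖P t‖ := norm_nonneg _
    have hsq : 1 / 2 ≤ ‖Q t‖ ^ 2 := by nlinarith
    have h5 : V t * ‖Q t‖ ^ 2 ≤ 3 / 4 * w * ‖Q t‖ ^ 2 := by gcongr
    have h6 : ‖P t‖ ^ 2 ≤ pm ^ 2 := by gcongr
    have h7 : K * ‖P t‖ ≤ K * pm := by gcongr
    have h8 : wlo / 2 * (1 / 2) ≤ w / 2 * ‖Q t‖ ^ 2 := by
      have hw0 : 0 ≤ w / 2 := by linarith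
      have hw2 : wlo / 2 ≤ w / 2 := by linarith
      exact mul_le_mul hw2 hsq (by norm_num) hw0
    simp only [hφ'']
    rw [e1, e2]
    nlinarith
  intro t ht
  have hφ1 : ∀ s ∈ Icc R b, φ' s ≤ -(wlo / 8) * (s - R) := by
    intro s hs
    have := le_of_deriv_nonpos (f := fun s => φ' s + wlo / 8 * (s - R))
      (f' := fun s => φ'' s + wlo / 8) (a := R) (b := b) (fun u hu => by
        have h1 := (hd2 u hu).add (((hasDerivWithinAt_id u (Icc R b)).sub_const R).const_mul (wlo / 8))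
        refine HasDerivWithinAt.congr_deriv h1 ?_
        ring) (fun u hu => by linarith [hφ2 u hu]) s hs
    have h0 : φ' R ≤ 0 := by simp only [hφ']; linarith
    simp only [sub_self, mul_zero, add_zero] at this
    linarith
  refine ⟨hφ1 t ht, ?_, hPb t ht⟩
  have := le_of_deriv_nonpos (f := fun s => ‖Q s‖ ^ 2 + wlo / 16 * (s - R) ^ 2)
      (f' := fun s => φ' s + wlo / 8 * (s - R)) (a := R) (b := b) (fun u hu => by
        have h1 := (hd1 u hu).add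
          ((((hasDerivWithinAt_id u (Icc R b)).sub_const R).pow 2).const_mul (wlo / 16))
        refine h1.congr_deriv ?_
        simp
        ring) (fun u hu => by linarith [hφ1 u hu]) t ht
  simp only [sub_self, ne_eq, OfNat.ofNat_ne_zero, not_false_eq_true, zero_pow, mul_zero,
    add_zero] at this
  linarith

theorem cont_induction' {g : ℝ → ℝ} {a b c : ℝ} (hg : ContinuousOn g (Icc a b)) (ha : g a ≤ c)
    (h : ∀ x ∈ Icc a b, (∀ t ∈ Icc a x, g t ≤ c) → g x < c) :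
    ∀ x ∈ Icc a b, g x < c := by
  apply cont_induction hg
  intro x hx hlt
  apply h x hx
  intro t ht
  rcases lt_or_eq_of_le ht.2 with h1 | h1
  · exact (hlt t ⟨ht.1, h1⟩).le
  · subst h1
    rcases eq_or_lt_of_le hx.1 with h2 | h2
    · rw [← h2]; exact ha
    · have hc : ContinuousWithinAt g (Ico a t) t :=
        (hg t hx).mono (fun s hs => ⟨hs.1, hs.2.le.trans hx.2⟩)
      have hne : (nhdsWithin t (Ico a t)).NeBot := by
        rw [← mem_closure_iff_nhdsWithin_neBot, closure_Ico h2.ne]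
        exact ⟨h2.le, le_rfl⟩
      exact le_of_tendsto hc (by
        filter_upwards [self_mem_nhdsWithin] with s hs using (hlt s hs).le)

/-- The layer estimate without a priori hypothesis. -/
theorem layer {D w a : ℝ} {n : ℕ} {V : ℝ → ℝ} {Q P : ℝ → ℂ} {R b K wlo pm : ℝ}
    (hn : 1 ≤ n) (hV0 : ∀ t ∈ Icc R b, 0 ≤ V t) (hV1 : ∀ t ∈ Icc R b, V t ≤ ‖Q t‖ ^ n)
    (hS : SysV D w a V Q P R b)
    (hK : 2 ≤ K) (hA : ∀ r ∈ Icc R b, ‖cA D r‖ ≤ K) (hB : ‖cB w a‖ ≤ 2)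
    (hwlo : 0 < wlo) (hw : wlo ≤ w) (hw1 : w ≤ 1)
    (hpm : 0 < pm) (hpm1 : 2 * pm ^ 2 + 2 * K * pm ≤ wlo / 8)
    (hδ : 12 * (b - R) ≤ pm) (hδK : K * (b - R) ≤ 1) (hpm2 : pm ≤ 1)
    (hq0 : 7 / 8 ≤ ‖Q R‖) (hq1 : 6 * ‖P R‖ ≤ pm)
    (hin : inner ℝ (Q R) (P R) ≤ 0)
    (hthr : ‖Q R‖ ^ n ≤ w / 2) :
    ∀ t ∈ Icc R b, 2 * inner ℝ (Q t) (P t) ≤ -(wlo / 8) * (t - R) ∧
      ‖Q t‖ ^ 2 ≤ ‖Q R‖ ^ 2 - wlo / 16 * (t - R) ^ 2 ∧ ‖P t‖ ≤ pm := by
  have hw0 : 0 < w := lt_of_lt_of_le hwlo hw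
  have key : ∀ x ∈ Icc R b, (∀ t ∈ Icc R x, ‖Q t‖ ^ n ≤ 3 / 4 * w) →
      ∀ t ∈ Icc R x, 2 * inner ℝ (Q t) (P t) ≤ -(wlo / 8) * (t - R) ∧
        ‖Q t‖ ^ 2 ≤ ‖Q R‖ ^ 2 - wlo / 16 * (t - R) ^ 2 ∧ ‖P t‖ ≤ pm := by
    intro x hx hap
    have hxb : x - R ≤ b - R := by linarith [hx.2]
    have hKx : K * (x - R) ≤ 1 := le_trans (by gcongr) hδK
    exact layer_aux hn (fun r hr => hV0 r ⟨hr.1, hr.2.trans hx.2⟩)
      (fun r hr => hV1 r ⟨hr.1, hr.2.trans hx.2⟩) (hS.mono le_rfl hx.2) hK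
      (fun r hr => hA r ⟨hr.1, hr.2.trans hx.2⟩) hB hwlo hw hw1 hpm hpm1
      (by linarith) hKx hpm2 hq0 hq1 hin hap
  have hall : ∀ x ∈ Icc R b, ‖Q x‖ ^ n < 3 / 4 * w := by
    apply cont_induction' (g := fun x => ‖Q x‖ ^ n)
    · exact (hS.contQ.norm).pow n
    · show ‖Q R‖ ^ n ≤ 3 / 4 * w
      linarith
    · intro x hx hap
      have h1 := (key x hx hap x ⟨hx.1, le_rfl⟩).2.1
      have h2 : ‖Q x‖ ^ 2 ≤ ‖Q R‖ ^ 2 := by
        have : 0 ≤ wlo / 16 * (x - R) ^ 2 := by positivity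
        linarith
      have h3 : ‖Q x‖ ≤ ‖Q R‖ :=
        (pow_le_pow_iff_left₀ (norm_nonneg _) (norm_nonneg _) (by norm_num)).mp h2
      have h4 : ‖Q x‖ ^ n ≤ ‖Q R‖ ^ n := by gcongr
      show ‖Q x‖ ^ n < 3 / 4 * w
      linarith
  intro t ht
  exact key b ⟨ht.1.trans ht.2, le_rfl⟩ (fun s hs => (hall s hs).le) t ht

end Vale.Agent.P139.H307
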