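import Vale.Agent.P139.H307.Trans1
import Vale.Agent.P139.H460.PSpec

/-!
# P139 / H307 : proof of `TransitStatement` (second phase)
-/

open Set MeasureTheory Complex Filter Topology

namespace Vale.Agent.P139.H307

open Vale.Agent.P139.H460

theorem hasDerivWithinAt_Icc_of_Ioo {f f' : ℝ → ℂ} {a b : ℝ} (hab : a < b)
    (hf : ContinuousOn f (Icc a b)) (hf' : ContinuousOn f' (Icc a b))
    (hd : ∀ x ∈ Ioo a b, HasDerivAt f (f' x) x) :
    ∀ x ∈ Icc a b, HasDerivWithinAt f (f' x) (Icc a b) x := by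
  have hderiv : ∀ x ∈ Ioo a b, deriv f x = f' x := fun x hx => (hd x hx).deriv
  have hdiff : DifferentiableOn ℝ f (Ioo a b) := fun x hx =>
    (hd x hx).differentiableAt.differentiableWithinAt
  intro x hx
  rcases eq_or_lt_of_le hx.1 with h1 | h1
  · subst h1
    have := hasDerivWithinAt_Ici_of_tendsto_deriv (s := Ioo a b) (e := f' a) (a := a) (f := f)
      hdiff ((hf a hx).mono Ioo_subset_Icc_self) (Ioo_mem_nhdsGT hab) (by
        have h2 : Tendsto f' (𝓝[>] a) (𝓝 (f' a)) := by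
          have h3 := hf' a hx
          have h4 : ContinuousWithinAt f' (Ioo a b) a := h3.mono Ioo_subset_Icc_self
          rwa [ContinuousWithinAt, nhdsWithin_Ioo_eq_nhdsGT hab] at h4
        refine h2.congr' ?_
        filter_upwards [Ioo_mem_nhdsGT hab] with y hy using (hderiv y hy).symm)
    exact this.mono Icc_subset_Ici_self
  · rcases eq_or_lt_of_le hx.2 with h2 | h2
    · subst h2
      have := hasDerivWithinAt_Iic_of_tendsto_deriv (s := Ioo a x) (e := f' x) (a := x) (f := f)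
        hdiff ((hf x hx).mono Ioo_subset_Icc_self) (Ioo_mem_nhdsLT hab) (by
          have h2 : Tendsto f' (𝓝[<] x) (𝓝 (f' x)) := by
            have h3 := hf' x hx
            have h4 : ContinuousWithinAt f' (Ioo a x) x := h3.mono Ioo_subset_Icc_self
            rwa [ContinuousWithinAt, nhdsWithin_Ioo_eq_nhdsLT hab] at h4
          refine h2.congr' ?_
          filter_upwards [Ioo_mem_nhdsLT hab] with y hy using (hderiv y hy).symm)
      exact this.mono Icc_subset_Iic_self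
    · exact (hd x ⟨h1, h2⟩).hasDerivWithinAt

theorem continuousOn_cA {D a b : ℝ} (ha : 0 < a) : ContinuousOn (cA D) (Icc a b) := by
  unfold cA
  apply ContinuousOn.sub
  · apply ContinuousOn.neg
    apply Complex.continuous_ofReal.comp_continuousOn
    apply ContinuousOn.div continuousOn_const continuousOn_id
    intro x hx
    exact (lt_of_lt_of_le ha hx.1).ne'
  · fun_prop

/-- from the interface form to the closed interval form. -/
theorem sysV_of_radODE {d : ℕ} {a w : ℝ} {V : ℝ → ℝ} {Y Y1 : ℝ → ℂ} {R b : ℝ} (hR : 0 < R)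
    (hRb : R < b) (hY : ContinuousOn Y (Icc R b)) (hY1 : ContinuousOn Y1 (Icc R b))
    (hV : ContinuousOn V (Icc R b)) (h : RadODE d a w V Y Y1 (Ioo R b)) :
    SysV ((d : ℝ) - 1) w a V Y Y1 R b := by
  refine ⟨hasDerivWithinAt_Icc_of_Ioo hRb hY hY1 h.h1, ?_⟩
  apply hasDerivWithinAt_Icc_of_Ioo hRb hY1
  · apply ContinuousOn.add
    · exact ((continuousOn_cA hR).mul hY1).add (continuousOn_const.mul hY)
    · exact (Complex.continuous_ofReal.comp_continuousOn hV).mul hY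
  · intro x hx
    refine (h.h2 x hx).congr_deriv ?_
    unfold cA cB
    push_cast
    ring

theorem continuous_omg (n : ℕ) (η θ R : ℝ) : Continuous (fun r => omg n η θ (r - R)) := by
  unfold omg
  fun_prop

/-- Gaussian bound of the forcing. -/
theorem gauss_int {c R x : ℝ} (hc : 0 < c) (hx : R ≤ x) :
    ∫ t in R..x, Real.exp (-(c * (t - R) ^ 2)) ≤ Real.sqrt (Real.pi / c) := by
  have h1 : ∫ t in R..x, Real.exp (-(c * (t - R) ^ 2))
      = ∫ t in (0:ℝ)..(x - R), Real.exp (-c * t ^ 2) := by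
    have := intervalIntegral.integral_comp_sub_right
      (f := fun t => Real.exp (-c * t ^ 2)) (a := R) (b := x) R
    simp only [sub_self] at this
    rw [← this]
    simp only [neg_mul]
  rw [h1, intervalIntegral.integral_of_le (by linarith)]
  rw [← integral_gaussian c]
  apply setIntegral_le_integral (integrable_exp_neg_mul_sq hc)
  exact Filter.Eventually.of_forall (fun _ => (Real.exp_pos _).le)

/-- choice of the constants -/
theorem const_aux {D wlo Rlo R2 : ℝ} (hD : 0 ≤ D) (hwlo : 0 < wlo) (hwlo1 : wlo ≤ 1)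
    (hRlo : 0 < Rlo) (hR2 : Rlo ≤ R2) :
    ∃ K pm δ : ℝ, D / Rlo + R2 / 2 ≤ K ∧ 2 ≤ K ∧ 0 < pm ∧ pm ≤ 1 ∧
      2 * pm ^ 2 + 2 * K * pm ≤ wlo / 8 ∧ 0 < δ ∧ 12 * δ ≤ pm ∧ K * δ ≤ 1 := by
  have hR2' : 0 < R2 := lt_of_lt_of_le hRlo hR2
  have hK : 2 ≤ D / Rlo + R2 / 2 + 2 := by
    have : 0 ≤ D / Rlo := by positivity
    have : 0 ≤ R2 / 2 := by positivity
    linarith
  generalize hKdef : D / Rlo + R2 / 2 + 2 = K at hK
  have hKpos : 0 < K := by linarith
  have hpm : 0 < wlo / (32 * K) := by positivity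
  have hKpm : K * (wlo / (32 * K)) = wlo / 32 := by field_simp
  have h64 : wlo / (32 * K) ≤ wlo / 64 :=
    div_le_div_of_nonneg_left hwlo.le (by norm_num) (by linarith)
  refine ⟨K, wlo / (32 * K), min (wlo / (32 * K) / 12) (1 / K), by linarith, hK, hpm,
    by linarith, ?_, lt_min (by positivity) (by positivity), ?_, ?_⟩
  · generalize wlo / (32 * K) = pm at hpm hKpm h64
    nlinarith
  · have := min_le_left (wlo / (32 * K) / 12) (1 / K)
    linarith
  · calc K * min (wlo / (32 * K) / 12) (1 / K) ≤ K * (1 / K) := by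
          gcongr; exact min_le_right _ _
      _ = 1 := by field_simp

/-- crude a priori bound -/
theorem apriori {D w a : ℝ} {V : ℝ → ℝ} {Y Y1 : ℝ → ℂ} {R b K : ℝ} (hRb : R ≤ b)
    (hS : SysV D w a V Y Y1 R b) (hK : 2 ≤ K) (hA : ∀ r ∈ Icc R b, ‖cA D r‖ ≤ K)
    (hB : ‖cB w a‖ ≤ 2) (hV0 : ∀ t ∈ Icc R b, 0 ≤ V t) (hV4 : ∀ t ∈ Icc R b, V t ≤ 4) :
    ∀ t ∈ Icc R b, ‖Y t‖ ≤ max ‖Y R‖ ‖Y1 R‖ * Real.exp ((K + 6) * (t - R)) := by
  intro t ht
  set f : ℝ → ℂ × ℂ := fun r => (Y r, Y1 r) with hf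
  set f' : ℝ → ℂ × ℂ := fun r => (Y1 r, cA D r * Y1 r + cB w a * Y r + (V r : ℂ) * Y r) with hf'
  have hg := norm_le_gronwallBound_of_norm_deriv_right_le (f := f) (f' := f')
    (δ := max ‖Y R‖ ‖Y1 R‖) (K := K + 6) (ε := 0) (a := R) (b := b)
    (hS.contQ.prodMk hS.contP) (fun x hx =>
      ((hS.hQ x ⟨hx.1, hx.2.le⟩).mono_of_mem_nhdsWithin (Icc_mem_Ici hx)).prodMk
        ((hS.hP x ⟨hx.1, hx.2.le⟩).mono_of_mem_nhdsWithin (Icc_mem_Ici hx))) le_rfl ?_ t ht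
  · rw [gronwallBound_ε0] at hg
    exact (le_max_left ‖Y t‖ ‖Y1 t‖).trans hg
  · intro x hx
    have hx' : x ∈ Icc R b := ⟨hx.1, hx.2.le⟩
    have h0 : ‖Y x‖ ≤ ‖f x‖ := le_max_left _ _
    have h1 : ‖Y1 x‖ ≤ ‖f x‖ := le_max_right _ _
    have h2 : 0 ≤ ‖f x‖ := norm_nonneg _
    have hfe : ‖f' x‖ = max ‖Y1 x‖ ‖cA D x * Y1 x + cB w a * Y x + (V x : ℂ) * Y x‖ := rfl
    rw [hfe, add_zero]
    apply max_le
    · nlinarith
    · calc ‖cA D x * Y1 x + cB w a * Y x + (V x : ℂ) * Y x‖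
          ≤ ‖cA D x‖ * ‖Y1 x‖ + ‖cB w a‖ * ‖Y x‖ + V x * ‖Y x‖ := by
            refine norm_add₃_le.trans ?_
            rw [norm_mul, norm_mul, norm_mul, Complex.norm_real, Real.norm_eq_abs,
              abs_of_nonneg (hV0 x hx')]
        _ ≤ K * ‖f x‖ + 2 * ‖f x‖ + 4 * ‖f x‖ := by
            have := hA x hx'
            have := hV4 x hx'
            have := hV0 x hx'
            gcongr
        _ = (K + 6) * ‖f x‖ := by ring

/-- closeness to the linear solution -/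
theorem close {D w a : ℝ} {V : ℝ → ℝ} {Y Y1 Z Z1 : ℝ → ℂ} {R b K G M0 : ℝ} (hRb : R ≤ b)
    (hS : SysV D w a V Y Y1 R b) (hSZ : SysV D w 0 (fun _ => 0) Z Z1 R b)
    (hK : 2 ≤ K) (hA : ∀ r ∈ Icc R b, ‖cA D r‖ ≤ K)
    (hB0 : ‖cB w 0‖ ≤ 2) (ha : 0 ≤ a)
    (hV0 : ∀ t ∈ Icc R b, 0 ≤ V t)
    (hVc : ContinuousOn V (Icc R b)) (hM0 : ∀ t ∈ Icc R b, ‖Y t‖ ≤ M0)
    (hG : ∫ t in R..b, V t ≤ G) :
    ∀ t ∈ Icc R b,
      ‖Y t - Z t‖ ≤ (max ‖Y R - Z R‖ ‖Y1 R - Z1 R‖ + 2 * (M0 * (G + a * (b - R)))) *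
        Real.exp (2 * K * (t - R)) ∧
      ‖Y1 t - Z1 t‖ ≤ (max ‖Y R - Z R‖ ‖Y1 R - Z1 R‖ + 2 * (M0 * (G + a * (b - R)))) *
        Real.exp (2 * K * (t - R)) := by
  have hM0' : 0 ≤ M0 := (norm_nonneg _).trans (hM0 R ⟨le_rfl, hRb⟩)
  set N : ℝ → ℂ := fun t => ((V t : ℂ) - I * (a : ℂ)) * Y t with hN
  have hNc : ContinuousOn N (Icc R b) :=
    ((Complex.continuous_ofReal.comp_continuousOn hVc).sub continuousOn_const).mul hS.contQ
  have hNb : ∀ t ∈ Icc R b, ‖N t‖ ≤ M0 * (V t + a) := by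
    intro t ht
    have h1 : ‖(V t : ℂ) - I * (a : ℂ)‖ ≤ V t + a := by
      refine (norm_sub_le _ _).trans ?_
      rw [norm_mul, Complex.norm_I, one_mul, Complex.norm_real, Complex.norm_real,
        Real.norm_eq_abs, Real.norm_eq_abs, abs_of_nonneg (hV0 t ht), abs_of_nonneg ha]
    calc ‖N t‖ = ‖(V t : ℂ) - I * (a : ℂ)‖ * ‖Y t‖ := norm_mul _ _
      _ ≤ (V t + a) * M0 := by
          have := hM0 t ht
          have := hV0 t ht
          gcongr
      _ = M0 * (V t + a) := by ring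
  have hVi : IntervalIntegrable V volume R b := hVc.intervalIntegrable_of_Icc hRb
  have hGN : ∫ t in R..b, ‖N t‖ ≤ M0 * (G + a * (b - R)) := by
    calc ∫ t in R..b, ‖N t‖ ≤ ∫ t in R..b, M0 * (V t + a) := by
          apply intervalIntegral.integral_mono_on hRb
          · exact hNc.norm.intervalIntegrable_of_Icc hRb
          · exact (hVi.add intervalIntegrable_const).const_mul M0
          · intro t ht; exact hNb t ht
      _ = M0 * ((∫ t in R..b, V t) + a * (b - R)) := by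
          rw [intervalIntegral.integral_const_mul, intervalIntegral.integral_add hVi
            intervalIntegrable_const]
          simp [mul_comm]
      _ ≤ _ := by gcongr
  exact gron2 (E := fun t => Y t - Z t) (P := fun t => Y1 t - Z1 t) (N := N)
    (A := cA D) (B := cB w 0) (R := R) (b := b) (K := K)
    (G := M0 * (G + a * (b - R))) (by linarith)
    (fun r hr => (hS.hQ r hr).sub (hSZ.hQ r hr))
    (fun r hr => by
      have := (hS.hP r hr).sub (hSZ.hP r hr)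
      refine this.congr_deriv ?_
      simp only [hN, cB, ofReal_zero, mul_zero, add_zero, zero_mul]
      ring) hA (hB0.trans hK) hNc hGN

/-- `(w/2)^(1/n)` is close to `1`. -/
theorem root_close {w wm : ℝ} (hwm : 0 < wm) (hw : wm ≤ w) (hw1 : w ≤ 1) {n : ℕ} (hn : 1 ≤ n) :
    1 - (-(Real.log (wm / 2))) / n ≤ (w / 2) ^ (1 / (n : ℝ)) ∧ (w / 2) ^ (1 / (n : ℝ)) ≤ 1 ∧
      0 < (w / 2) ^ (1 / (n : ℝ)) := by
  have hnpos : (0 : ℝ) < n := by exact_mod_cast hn
  have hw0 : 0 < w / 2 := by linarith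
  refine ⟨?_, ?_, Real.rpow_pos_of_pos hw0 _⟩
  · rw [Real.rpow_def_of_pos hw0]
    have h1 := Real.add_one_le_exp (Real.log (w / 2) * (1 / (n : ℝ)))
    have h2 : Real.log (wm / 2) ≤ Real.log (w / 2) :=
      Real.log_le_log (by linarith) (by linarith)
    have h3 : Real.log (wm / 2) * (1 / (n : ℝ)) ≤ Real.log (w / 2) * (1 / (n : ℝ)) := by
      gcongr
    have h4 : 1 - (-(Real.log (wm / 2))) / (n : ℝ) = Real.log (wm / 2) * (1 / (n : ℝ)) + 1 := by
      ring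
    linarith
  · exact Real.rpow_le_one hw0.le (by linarith) (by positivity)

theorem theta_pow {θ : ℝ} (h0 : 0 < θ) (h1 : θ < 1) {n : ℕ} (hn : 1 ≤ n) :
    θ ^ n ≤ 1 / (1 - θ) * (1 / n) := by
  have hnpos : (0 : ℝ) < n := by exact_mod_cast hn
  have h2 : 1 + (n : ℝ) * (1 / θ - 1) ≤ (1 + (1 / θ - 1)) ^ n :=
    one_add_mul_le_pow (by
      have : 0 < 1 / θ := by positivity
      linarith) n
  have h3 : (1 + (1 / θ - 1)) ^ n = 1 / θ ^ n := by
    rw [add_sub_cancel, div_pow, one_pow]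
  rw [h3] at h2
  have h4 : (n : ℝ) * (1 - θ) ≤ 1 / θ ^ n := by
    have h5 : 1 - θ ≤ 1 / θ - 1 := by
      have : 1 / θ - 1 = (1 - θ) / θ := by field_simp
      rw [this, le_div_iff₀ h0]
      nlinarith
    have : (n : ℝ) * (1 - θ) ≤ n * (1 / θ - 1) := by gcongr
    linarith
  have hθn : 0 < θ ^ n := by positivity
  have h1θ : 0 < 1 - θ := by linarith
  rw [le_div_iff₀ hθn] at h4
  rw [div_mul_div_comm, one_mul, le_div_iff₀ (by positivity)]
  linarith

/-- the part of the transit statement on the layer -/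
theorem transit_layer {D w a : ℝ} {n : ℕ} {V : ℝ → ℝ} {Y Y1 : ℝ → ℂ} {R b K wlo pm : ℝ}
    (hn : 1 ≤ n) (hV0 : ∀ t ∈ Icc R b, 0 ≤ V t) (hV1 : ∀ t ∈ Icc R b, V t ≤ ‖Y t‖ ^ n)
    (hS : SysV D w a V Y Y1 R b) (hRb : R ≤ b)
    (hK : 2 ≤ K) (hA : ∀ r ∈ Icc R b, ‖cA D r‖ ≤ K) (hB : ‖cB w a‖ ≤ 2)
    (hwlo : 0 < wlo) (hw : wlo ≤ w) (hw1 : w ≤ 1)
    (hpm : 0 < pm) (hpm1 : 2 * pm ^ 2 + 2 * K * pm ≤ wlo / 8)
    (hδ : 12 * (b - R) ≤ pm) (hδK : K * (b - R) ≤ 1) (hpm2 : pm ≤ 1)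
    (hq1 : 6 * ‖Y1 R‖ ≤ pm) (hYR : Y R = (((w / 2) ^ (1 / (n : ℝ)) : ℝ) : ℂ))
    (hq0 : 7 / 8 ≤ (w / 2) ^ (1 / (n : ℝ))) (hre : (Y1 R).re ≤ 0) :
    (∀ r ∈ Icc R b, ‖Y r‖ ^ n ≤ (w / 2) * Real.exp (-(wlo / 32 * n * (r - R) ^ 2))) ∧
    (∀ r ∈ Ioc R b, ((starRingEnd ℂ (Y r)) * Y1 r).re < 0) := by
  have hw0 : 0 < w := lt_of_lt_of_le hwlo hw
  have hnpos : (0 : ℝ) < n := by exact_mod_cast hn
  obtain ⟨q, hq⟩ : ∃ q : ℝ, q = (w / 2) ^ (1 / (n : ℝ)) := ⟨_, rfl⟩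
  rw [← hq] at hYR hq0
  have hqn : q ^ n = w / 2 := by
    rw [hq, ← Real.rpow_natCast, ← Real.rpow_mul (by linarith), one_div_mul_cancel hnpos.ne',
      Real.rpow_one]
  have hqpos : 0 < q := by linarith
  have hq1' : q ≤ 1 := by
    by_contra hcon
    push Not at hcon
    have : 1 < q ^ n := one_lt_pow₀ hcon (by omega)
    linarith
  have hnormR : ‖Y R‖ = q := by
    rw [hYR, Complex.norm_real, Real.norm_eq_abs, abs_of_pos hqpos]
  have hin : inner ℝ (Y R) (Y1 R) ≤ 0 := by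
    rw [hYR, Complex.inner]
    simp only [conj_ofReal, re_mul_ofReal]
    nlinarith
  have hl := layer hn hV0 hV1 hS hK hA hB hwlo hw hw1 hpm hpm1 hδ hδK hpm2
    (by rw [hnormR]; exact hq0) hq1 hin (by rw [hnormR, hqn])
  constructor
  · intro r hr
    obtain ⟨-, h2, -⟩ := hl r hr
    rw [hnormR] at h2
    have hx : 0 ≤ wlo / 16 * (r - R) ^ 2 := by positivity
    have hq2 : q ^ 2 ≤ 1 := by nlinarith
    have h3 : ‖Y r‖ ^ 2 ≤ q ^ 2 * Real.exp (-(wlo / 16 * (r - R) ^ 2)) := by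
      have h4 := Real.add_one_le_exp (-(wlo / 16 * (r - R) ^ 2))
      have h5 : q ^ 2 * (-(wlo / 16 * (r - R) ^ 2) + 1) ≤
          q ^ 2 * Real.exp (-(wlo / 16 * (r - R) ^ 2)) := by gcongr
      nlinarith
    have h4 : ‖Y r‖ ≤ q * Real.exp (-(wlo / 32 * (r - R) ^ 2)) := by
      apply (pow_le_pow_iff_left₀ (norm_nonneg _) (by positivity) (two_ne_zero)).mp
      rw [mul_pow, ← Real.exp_nat_mul]
      refine h3.trans (le_of_eq ?_)
      congr 2
      push_cast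
      ring
    calc ‖Y r‖ ^ n ≤ (q * Real.exp (-(wlo / 32 * (r - R) ^ 2))) ^ n := by gcongr
      _ = (w / 2) * Real.exp (-(wlo / 32 * n * (r - R) ^ 2)) := by
        rw [mul_pow, hqn, ← Real.exp_nat_mul]
        congr 2
        ring
  · intro r hr
    obtain ⟨h1, -, -⟩ := hl r ⟨hr.1.le, hr.2⟩
    have h2 : 0 < wlo / 8 * (r - R) := by
      have := hr.1
      have : 0 < r - R := by linarith
      positivity
    have h3 : inner ℝ (Y r) (Y1 r) = ((starRingEnd ℂ (Y r)) * Y1 r).re := by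
      rw [Complex.inner, mul_comm]
    rw [← h3]
    linarith

end Vale.Agent.P139.H307
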