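import Vale.Agent.P139.H307.Trans2

/-!
# P139 / H307 : proof of `TransitStatement` (second phase), main theorem
-/

open Set MeasureTheory Complex Filter Topology

namespace Vale.Agent.P139.H307

open Vale.Agent.P139.H460

/-- **TransitStatement** of the profile block. -/
theorem transitStatement {d : ℕ} (hd : 1 ≤ d) : TransitStatement d := by
  intro Rm Rp wm wp hRm hRmp hwm hwmp hwp
  have hD : (0 : ℝ) ≤ (d : ℝ) - 1 := by
    have : (1 : ℝ) ≤ d := by exact_mod_cast hd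
    linarith
  obtain ⟨K, pm, δ, hKA, hK, hpm, hpm2, hpm1, hδ0, hδ1, hδ2⟩ :=
    const_aux (D := (d : ℝ) - 1) (wlo := wm) (Rlo := Rm) (R2 := Rp + 1) hD hwm
      (hwmp.trans hwp) hRm (by linarith)
  refine ⟨min δ 1, lt_min hδ0 one_pos, wm / 32, by positivity, ?_⟩
  obtain ⟨η0, hη0⟩ : ∃ η0, η0 = min δ 1 := ⟨_, rfl⟩
  rw [← hη0]
  have hη01 : η0 ≤ 1 := by rw [hη0]; exact min_le_right _ _
  have hη0δ : η0 ≤ δ := by rw [hη0]; exact min_le_left _ _
  have hη0pos : 0 < η0 := by rw [hη0]; exact lt_min hδ0 one_pos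
  intro η hη θ hθ r1 hr1 C0 hC0
  have hRp : 0 < Rp := lt_of_lt_of_le hRm hRmp
  have hr1pos : 0 < r1 := by linarith
  obtain ⟨K2, hK2, hK2A⟩ : ∃ K2 : ℝ, 2 ≤ K2 ∧ ((d : ℝ) - 1) / Rm + r1 / 2 ≤ K2 := by
    refine ⟨((d : ℝ) - 1) / Rm + r1 / 2 + 2, ?_, by linarith⟩
    have : 0 ≤ ((d : ℝ) - 1) / Rm := by positivity
    linarith
  obtain ⟨M0, hM0, hM0def⟩ : ∃ M0 : ℝ, 0 < M0 ∧ M0 = (1 + C0) * Real.exp ((K2 + 6) * r1) :=
    ⟨_, by positivity, rfl⟩
  obtain ⟨lw, hlw, hlwdef⟩ : ∃ lw : ℝ, 0 < lw ∧ lw = -Real.log (wm / 2) := by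
    refine ⟨_, ?_, rfl⟩
    have : Real.log (wm / 2) < 0 := Real.log_neg (by linarith) (by linarith)
    linarith
  have hθ1 : 0 < 1 - θ := by linarith [hθ.2]
  obtain ⟨C, hC, hCdef⟩ : ∃ C : ℝ, 0 < C ∧ C = ((lw + C0) + 2 * (M0 *
      ((Real.sqrt (Real.pi / (wm / 32)) + 1 / (1 - θ) * r1) + r1))) *
      Real.exp (2 * K2 * r1) := ⟨_, by positivity, rfl⟩
  obtain ⟨N1, hN1⟩ := exists_nat_gt ((6 * C0 / pm) ^ 2)
  obtain ⟨N2, hN2⟩ := exists_nat_gt (8 * lw)
  refine ⟨C, hC, max (max N1 N2) 1, ?_⟩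
  intro n hn w hw R hR Y Y1 hYc hY1c hode hYR hre hY1R
  have hn1 : 1 ≤ n := (le_max_right _ _).trans hn
  have hnpos : (0 : ℝ) < n := by exact_mod_cast hn1
  have hnN1 : (6 * C0 / pm) ^ 2 < (n : ℝ) := lt_of_lt_of_le hN1
    (by exact_mod_cast ((le_max_left _ _).trans (le_max_left _ _)).trans hn)
  have hnN2 : 8 * lw < (n : ℝ) := lt_of_lt_of_le hN2
    (by exact_mod_cast ((le_max_right _ _).trans (le_max_left _ _)).trans hn)
  have hsqpos : 0 < Real.sqrt n := Real.sqrt_pos.mpr hnpos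
  have hsq1 : 1 ≤ Real.sqrt n := by
    rw [Real.one_le_sqrt]; exact_mod_cast hn1
  have hninv : (1 : ℝ) / n ≤ 1 / Real.sqrt n := by
    apply div_le_div_of_nonneg_left (by norm_num) hsqpos
    rw [Real.sqrt_le_left hnpos.le]
    have : (1 : ℝ) ≤ n := by exact_mod_cast hn1
    nlinarith
  have hRpos : 0 < R := lt_of_lt_of_le hRm hR.1
  have hRr1 : R < r1 := by linarith [hR.2]
  have hw0 : 0 < w := lt_of_lt_of_le hwm hw.1
  have hw1 : w ≤ 1 := hw.2.trans hwp
  -- the potential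
  obtain ⟨V, hVdef⟩ : ∃ V : ℝ → ℝ, V = fun r => min (‖Y r‖ ^ n) (omg n η θ (r - R)) := ⟨_, rfl⟩
  have hVc : ContinuousOn V (Icc R r1) := by
    rw [hVdef]
    exact continuous_min.comp_continuousOn
      (((hYc.norm).pow n).prodMk (continuous_omg n η θ R).continuousOn)
  have homg0 : ∀ s, 0 ≤ omg n η θ s := fun s => le_max_of_le_left (pow_nonneg hθ.1.le n)
  have hθn1 : θ ^ n ≤ 1 := pow_le_one₀ hθ.1.le hθ.2.le
  have homg4 : ∀ s, omg n η θ s ≤ 4 := fun s =>
    max_le (by linarith) (min_le_left _ _)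
  have hV0 : ∀ t, 0 ≤ V t := fun t => by
    rw [hVdef]; exact le_min (by positivity) (homg0 _)
  have hV1 : ∀ t, V t ≤ ‖Y t‖ ^ n := fun t => by
    rw [hVdef]; exact min_le_left _ _
  have hV4 : ∀ t, V t ≤ 4 := fun t => by
    rw [hVdef]; exact (min_le_right _ _).trans (homg4 _)
  have hS : SysV ((d : ℝ) - 1) w (1 / n) V Y Y1 R r1 := by
    have hode' : RadODE d (1 / n) w V Y Y1 (Ioo R r1) := by rw [hVdef]; exact hode
    exact sysV_of_radODE hRpos hRr1 hYc hY1c hVc hode'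
  have hainv0 : (0 : ℝ) ≤ 1 / n := by positivity
  have hainv1 : (1 : ℝ) / n ≤ 1 := by
    rw [div_le_one hnpos]; exact_mod_cast hn1
  have hB : ‖cB w (1 / n)‖ ≤ 2 := norm_cB_le hw0.le hw1 hainv0 hainv1
  have hB0 : ‖cB w 0‖ ≤ 2 := norm_cB_le hw0.le hw1 le_rfl zero_le_one
  obtain ⟨hroot1, hroot2, hroot3⟩ := root_close hwm hw.1 hw1 hn1
  rw [← hlwdef] at hroot1
  have hlwn : lw / n ≤ 1 / 8 := by
    rw [div_le_iff₀ hnpos]; linarith
  have hC0n : C0 / Real.sqrt n ≤ pm / 6 := by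
    have h1 : 6 * C0 / pm ≤ Real.sqrt n := Real.le_sqrt_of_sq_le hnN1.le
    rw [div_le_iff₀ hpm] at h1
    rw [div_le_iff₀ hsqpos]
    linarith
  -- layer
  have hlay := transit_layer (D := (d : ℝ) - 1) (w := w) (a := 1 / n) (V := V) (Y := Y) (Y1 := Y1)
    (R := R) (b := R + η0) (K := K) (wlo := wm) (pm := pm) hn1 (fun t _ => hV0 t)
    (fun t _ => hV1 t) (hS.mono le_rfl (by linarith [hR.2])) (by linarith) hK
    (fun r hr => (norm_cA_le hD hRm (hR.1.trans hr.1)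
      (by linarith [hr.2, hR.2] : r ≤ Rp + 1)).trans hKA) hB hwm hw.1 hw1 hpm hpm1
    (by rw [add_sub_cancel_left]; linarith)
    (by
      rw [add_sub_cancel_left]
      calc K * η0 ≤ K * δ := by gcongr
        _ ≤ 1 := hδ2) hpm2 (by linarith) hYR (by linarith) hre
  refine ⟨hlay.1, hlay.2, ?_⟩
  intro Z Z1 hZc hZ1c hZode hZR hZ1R
  have hSZ : SysV ((d : ℝ) - 1) w 0 (fun _ => 0) Z Z1 R r1 :=
    sysV_of_radODE hRpos hRr1 hZc hZ1c continuousOn_const hZode
  have hA2 : ∀ r ∈ Icc R r1, ‖cA ((d : ℝ) - 1) r‖ ≤ K2 := fun r hr =>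
    (norm_cA_le hD hRm (hR.1.trans hr.1) hr.2).trans hK2A
  have hYRn : ‖Y R‖ ≤ 1 := by
    rw [hYR, Complex.norm_real, Real.norm_eq_abs, abs_of_pos hroot3]; exact hroot2
  have hY1Rn : ‖Y1 R‖ ≤ C0 := hY1R.trans (div_le_self hC0.le hsq1)
  have hMb : ∀ t ∈ Icc R r1, ‖Y t‖ ≤ M0 := by
    intro t ht
    have h1 := apriori hRr1.le hS hK2 hA2 hB (fun t _ => hV0 t) (fun t _ => hV4 t) t ht
    refine h1.trans ?_
    rw [hM0def]
    have h2 : max ‖Y R‖ ‖Y1 R‖ ≤ 1 + C0 := max_le (by linarith) (by linarith)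
    have h3 : Real.exp ((K2 + 6) * (t - R)) ≤ Real.exp ((K2 + 6) * r1) := by
      apply Real.exp_le_exp.mpr
      have : t - R ≤ r1 := by linarith [ht.2]
      gcongr
    exact mul_le_mul h2 h3 (Real.exp_pos _).le (by positivity)
  -- integral of the potential
  have hVb : ∀ t ∈ Icc R r1, V t ≤ Real.exp (-(wm / 32 * n * (t - R) ^ 2)) + θ ^ n := by
    intro t ht
    rcases le_or_gt t (R + η0) with h1 | h1
    · have h2 := (hV1 t).trans (hlay.1 t ⟨ht.1, h1⟩)
      have h3 : w / 2 * Real.exp (-(wm / 32 * n * (t - R) ^ 2))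
          ≤ 1 * Real.exp (-(wm / 32 * n * (t - R) ^ 2)) := by
        gcongr; linarith
      have h4 : 0 ≤ θ ^ n := pow_nonneg hθ.1.le n
      linarith
    · have h2 : V t ≤ omg n η θ (t - R) := by rw [hVdef]; exact min_le_right _ _
      have h3 : omg n η θ (t - R) ≤ θ ^ n := by
        unfold omg
        apply max_le le_rfl
        refine (min_le_right _ _).trans ?_
        have h4 : 2 ≤ (t - R) / η := by
          rw [le_div_iff₀ hη.1]
          have := hη.2
          linarith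
        have h5 : 0 ≤ θ ^ n := pow_nonneg hθ.1.le n
        linarith
      have h4 := Real.exp_pos (-(wm / 32 * n * (t - R) ^ 2))
      linarith
  have hcn : 0 < wm / 32 * n := by positivity
  have hG : ∫ t in R..r1, V t ≤
      (Real.sqrt (Real.pi / (wm / 32)) + 1 / (1 - θ) * r1) * (1 / Real.sqrt n) := by
    calc ∫ t in R..r1, V t
        ≤ ∫ t in R..r1, (Real.exp (-(wm / 32 * n * (t - R) ^ 2)) + θ ^ n) := by
          apply intervalIntegral.integral_mono_on hRr1.le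
          · exact hVc.intervalIntegrable_of_Icc hRr1.le
          · exact (Continuous.intervalIntegrable (by fun_prop) _ _)
          · exact hVb
      _ = (∫ t in R..r1, Real.exp (-(wm / 32 * n * (t - R) ^ 2))) + θ ^ n * (r1 - R) := by
          rw [intervalIntegral.integral_add (Continuous.intervalIntegrable (by fun_prop) _ _)
            (Continuous.intervalIntegrable (by fun_prop) _ _)]
          simp [mul_comm]
      _ ≤ Real.sqrt (Real.pi / (wm / 32)) * (1 / Real.sqrt n) +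
          (1 / (1 - θ) * (1 / Real.sqrt n)) * r1 := by
          have h1 := gauss_int (R := R) (x := r1) hcn hRr1.le
          have h2 : Real.sqrt (Real.pi / (wm / 32 * n)) =
              Real.sqrt (Real.pi / (wm / 32)) * (1 / Real.sqrt n) := by
            rw [← div_div, Real.sqrt_div' _ hnpos.le]
            ring
          have h3 := theta_pow hθ.1 hθ.2 hn1
          have h4 : θ ^ n * (r1 - R) ≤ (1 / (1 - θ) * (1 / Real.sqrt n)) * r1 := by
            have h5 : θ ^ n ≤ 1 / (1 - θ) * (1 / Real.sqrt n) := by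
              refine h3.trans ?_
              gcongr
            have h6 : 0 ≤ θ ^ n := pow_nonneg hθ.1.le n
            have h7 : r1 - R ≤ r1 := by linarith
            have h8 : 0 ≤ r1 - R := by linarith
            exact mul_le_mul h5 h7 h8 (h6.trans h5)
          rw [h2] at h1
          linarith
      _ = _ := by ring
  intro r hr
  have hcl := close hRr1.le hS hSZ hK2 hA2 hB0 hainv0 (fun t _ => hV0 t) hVc hMb hG r hr
  have hmax : max ‖Y R - Z R‖ ‖Y1 R - Z1 R‖ ≤ (lw + C0) * (1 / Real.sqrt n) := by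
    rw [hZR, hZ1R, sub_zero, add_mul]
    have h1 : ‖Y R - 1‖ ≤ lw * (1 / Real.sqrt n) := by
      rw [hYR, ← ofReal_one, ← ofReal_sub, Complex.norm_real, Real.norm_eq_abs]
      rw [abs_of_nonpos (by linarith)]
      have h2 : lw / n = lw * (1 / n) := by ring
      have h3 : lw * (1 / n) ≤ lw * (1 / Real.sqrt n) := by gcongr
      linarith
    have h2 : ‖Y1 R‖ ≤ C0 * (1 / Real.sqrt n) := by
      rw [mul_one_div]; exact hY1R
    have h3 : 0 ≤ lw * (1 / Real.sqrt n) := by positivity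
    have h4 : 0 ≤ C0 * (1 / Real.sqrt n) := by positivity
    exact max_le (by linarith) (by linarith)
  have hsum : max ‖Y R - Z R‖ ‖Y1 R - Z1 R‖ + 2 * (M0 *
      ((Real.sqrt (Real.pi / (wm / 32)) + 1 / (1 - θ) * r1) * (1 / Real.sqrt n) +
        1 / n * (r1 - R))) ≤ ((lw + C0) + 2 * (M0 *
      ((Real.sqrt (Real.pi / (wm / 32)) + 1 / (1 - θ) * r1) + r1))) * (1 / Real.sqrt n) := by
    have h1 : 1 / (n : ℝ) * (r1 - R) ≤ (1 / Real.sqrt n) * r1 := by
      apply mul_le_mul hninv (by linarith) (by linarith) (by positivity)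
    have h2 : M0 * ((Real.sqrt (Real.pi / (wm / 32)) + 1 / (1 - θ) * r1) * (1 / Real.sqrt n) +
        1 / n * (r1 - R)) ≤ M0 * ((Real.sqrt (Real.pi / (wm / 32)) + 1 / (1 - θ) * r1) *
          (1 / Real.sqrt n) + (1 / Real.sqrt n) * r1) := by gcongr
    calc _ ≤ (lw + C0) * (1 / Real.sqrt n) + 2 * (M0 * ((Real.sqrt (Real.pi / (wm / 32)) +
          1 / (1 - θ) * r1) * (1 / Real.sqrt n) + (1 / Real.sqrt n) * r1)) := by linarith
      _ = _ := by ring
  have hexp : Real.exp (2 * K2 * (r - R)) ≤ Real.exp (2 * K2 * r1) := by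
    apply Real.exp_le_exp.mpr
    have : r - R ≤ r1 := by linarith [hr.2]
    gcongr
  have hfin : (max ‖Y R - Z R‖ ‖Y1 R - Z1 R‖ + 2 * (M0 *
      ((Real.sqrt (Real.pi / (wm / 32)) + 1 / (1 - θ) * r1) * (1 / Real.sqrt n) +
        1 / n * (r1 - R)))) * Real.exp (2 * K2 * (r - R)) ≤ C / Real.sqrt n := by
    calc _ ≤ (((lw + C0) + 2 * (M0 *
          ((Real.sqrt (Real.pi / (wm / 32)) + 1 / (1 - θ) * r1) + r1))) * (1 / Real.sqrt n)) *
            Real.exp (2 * K2 * r1) :=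
          mul_le_mul hsum hexp (Real.exp_pos _).le (by positivity)
      _ = C / Real.sqrt n := by rw [hCdef]; ring
  exact ⟨hcl.1.trans hfin, hcl.2.trans hfin⟩

end Vale.Agent.P139.H307
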